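import Vale.Agent.H22.LT2GT
import Vale.Agent.H22.LT2A
import Vale.Agent.H22.LT2K
import Vale.Agent.H14.LT2G
import Vale.Agent.H25.LT2J
import Vale.Agent.H26.LT2S
import Vale.Agent.H19.LT2.TR
import Vale.Agent.H28.LT2P
import Vale.Agent.H17.LT2C
import Vale.Agent.H19.LT2.RFinal
import Vale.Agent.H12.LT2E

/-!
The rows of the proof of the sharp one-dimensional Lieb-Thirring inequality.
-/
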